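import Vale.Agent.P070ZW.Dir
import Vale.Agent.P070ZA.Defs
import Vale.Agent.P070Z41.Pre

/-!
# The tower of good pairs
-/

set_option linter.unusedSectionVars false

namespace Vale.Agent.P070Z

open Vale.Agent.P129B Vale.Agent.P070ZT

universe v w

variable {N : Type v} [ZM N]
  {R K : Type*} [Nm K R] [Field R] [LinearOrder R] [IsStrictOrderedRing R]
  [Field K] [Algebra R K] [KA R K] [StarRing K] [CX R K] [Coded N R] [RF N R] [Coded N K]
  [KF N R K] {H : Type w} [AddCommGroup H] [Module K H] [Nm H R] [Ip H K] [IA R K H] [Coded N H]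
  [HS N R K H] {L : Type*} [AddCommGroup L] [Module K L] [Nm L R] [Ip L K] [IA R K L] [Coded N L]
  [HS N R K L]

include R K

variable {P : Op N K H → Op N K L} {A0 : Set (Op N K H)} {k0 U : Op N K H}

theorem URp.lipz (hP : URp Set.univ P) (x y : Op N K H) (z : L) :
    nm (P x z - P y z) ≤ nm (x - y) * nm z := hP.lip cs_univ trivial trivial z

theorem URp.cancel (hP : URp Set.univ P) {a b : Op N K H} (h : a * b = 1) (z : L) :
    P a (P b z) = z := by
  rw [← hP.toRp.mul_apply trivial trivial, h, hP.one_apply]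

theorem URp.hom (hP : URp Set.univ P) : P070Z41.Hom P :=
  ⟨hP.defF, hP.one, fun x y => hP.add x trivial y trivial, fun c x => hP.smul c x trivial,
    fun x y => hP.mul x trivial y trivial, fun x => hP.star x trivial, fun _ => hP.nm_le trivial⟩

theorem gen_le_wit {G S : Set (Op N K H)} {u : Op N K H} (h : P070Z41.Wit S) (hG : G ⊆ S)
    (hu : u ∈ S) : gen (G ∪ {u}) ⊆ S :=
  gen_le ⟨h.intl, h.one, h.add, h.mul, h.smul, h.star_mem, fun _ hx => h.cld hx⟩
    (Set.union_subset hG (Set.singleton_subset_iff.2 hu))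

/-- the unitary of a good pair is not in the algebra -/
theorem Good.notMem (hP : URp Set.univ P) {B : Set (Op N K H)} {k u : Op N K H} {z : L}
    (hz : P k0 z = 0) (hz0 : z ≠ 0) (h : Good P k0 U B k u) : u ∉ B := fun hu => by
  have h1 := ip_self_eq_zero.1 (h.ineq u hu z (P u z) hz (h.map z hz))
  refine hz0 ?_
  rw [← hP.cancel h.un.1 z, h1, map_zero]

/-- **Maximal towers.** -/
theorem exists_maximal_tower (hP : URp Set.univ P) (hA : CS N K A0) (U : Op N K H)
    (hk0 : k0 ∈ A0) (hpos : Pos k0) (hdet : Det P k0 A0) (hne : ∃ z : L, P k0 z = 0 ∧ z ≠ 0) :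
    ∃ (ι : Type w) (_ : Coded N ι) (_ : Tot N ι) (_ : LinearOrder ι) (_ : DefLT N ι)
      (_ : IWO N ι) (k u : ι → Op N K H), IsTower P A0 k0 U k u ∧
      ¬ ∃ k' u', Good P k0 U (gen (A0 ∪ u '' Set.univ)) k' u' := by
  obtain ⟨z, hz, hz0⟩ := hne
  have := hA.intl
  have im : DefF N (fun S : Set (Op N K H × Op N K H) => Prod.snd '' S) :=
    DefF.setOfT (P := fun (S : Set (Op N K H × Op N K H)) x => ∃ p ∈ S, p.2 = x) (by fun_prop)
  obtain ⟨ι, i1, i2, i3, i4, i5, e, he, h1, h2⟩ := exists_max_tower (N := N)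
    (G := fun (S : Set (Op N K H × Op N K H)) x =>
      Good P k0 U (gen (A0 ∪ Prod.snd '' S)) x.1 x.2)
    (DefF.good hP.defF k0 U (DefF.gen (DefF.union (DefF.const A0) (im.comp DefF.id.fst)))
      (by fun_prop) (by fun_prop))
    fun S x hS h hx => h.notMem hP hz hz0 (sub_gen _ (Or.inr ⟨x, hx, rfl⟩))
  refine ⟨ι, i1, i2, i3, i4, i5, fun i => (e i).1, fun i => (e i).2,
    ⟨hA, he.fst, he.snd, hk0, hpos, hdet, fun i => ?_⟩, fun ⟨k', u', h⟩ => h2 (k', u') ?_⟩
  · have := h1 i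
    rwa [Set.image_image] at this
  · rwa [← Set.image_univ, Set.image_image]

variable {ι : Type*} [Coded N ι] [Tot N ι] [LinearOrder ι] [DefLT N ι] [IWO N ι]
  {k u : ι → Op N K H}

theorem genL_mono {S T : Set ι} (h : S ⊆ T) : gen (A0 ∪ u '' S) ⊆ gen (A0 ∪ u '' T) :=
  gen_mono (Set.union_subset_union_right _ (Set.image_mono h))

theorem IsTower.glue (T : IsTower P A0 k0 U k u) {S : Set ι} [Intl N S] {i : ι}
    (hk : k i ∈ gen (A0 ∪ u '' S)) (hu : u i * k0 ∈ gen (A0 ∪ u '' S))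
    (D0 : Det P k0 (gen (A0 ∪ u '' S))) (Di : Det P (k i) (gen (A0 ∪ u '' S)))
    (I : Ineq P k0 (k i) (gen (A0 ∪ u '' S))) :
    P070Z41.Glue P (gen (A0 ∪ u '' S)) k0 (k i) (u i) := by
  have := T.cs.intl
  have := T.du.toIntl
  have C := cs_gen (A0 ∪ u '' S)
  exact ⟨C.intl, ⟨C.one, C.mul, C.star⟩, sub_gen _ (Or.inl T.k0_mem), hk, T.k0_pos.1,
    (T.good i).un.2, (T.good i).un.1, hu, (T.good i).map, (T.good i).map', D0, Di, I⟩

theorem IsTower.skel (hP : URp Set.univ P) (T : IsTower P A0 k0 U k u) :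
    Skel N (fun g S => Det P g (gen (A0 ∪ u '' S))) (fun g S => g ∈ gen (A0 ∪ u '' S))
      (fun i S => Ineq P k0 (k i) (gen (A0 ∪ u '' S))) k0 k := by
  have := T.cs.intl
  have := T.du.toIntl
  exact
    { defD := fun g => DefF.det hP.defF (DefF.const g) (gk_gen.defL DefF.id)
      dir := fun g => gk_gen.dirCl (cld_scalar hP.lipz fun z => P g z = 0)
      anti := fun g S _ h => h.mono (genL_mono (Set.subset_univ S))
      mono := fun g S T _ _ h hg => genL_mono h hg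
      step := fun g S i _ hS hg D0 Di Dg I x hx => by
        obtain ⟨W, h1, h2, h3, h4⟩ := (T.glue (genL_mono hS (T.good i).k_mem)
          (genL_mono hS (T.good i).uk_mem) D0 Di I).wit_ue hP.hom hg Dg
        exact h4 x (gen_le_wit h1 h2 h3 (gk_gen.insert_le S i hx))
      d0 := T.det0.mono (gk_gen.empty_le T.cs)
      m0 := fun S _ => sub_gen _ (Or.inl T.k0_mem)
      dk := fun i => (T.good i).det
      mk' := fun i => (T.good i).k_mem
      ii := fun i => (T.good i).ineq }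

theorem tower_det0 (hP : URp Set.univ P) (T : IsTower P A0 k0 U k u) :
    Det P k0 (gen (A0 ∪ u '' Set.univ)) := (T.skel hP).det0

theorem tower_step1 (hP : URp Set.univ P) (T : IsTower P A0 k0 U k u) {g : Op N K H} {i : ι}
    (hg : g ∈ gen (A0 ∪ u '' Set.Iio i)) (hD : Det P g (gen (A0 ∪ u '' Set.Iio i))) :
    Det P g (gen (A0 ∪ u '' Set.univ)) := (T.skel hP).step1 hg hD

theorem tower_orth (hP : URp Set.univ P) (T : IsTower P A0 k0 U k u) {Tc : ι → Set ι}
    [Intl N Tc]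
    (hT : ∀ i, Tc i ⊆ Set.Iio i ∧ k i ∈ gen (A0 ∪ u '' Tc i) ∧ u i * k0 ∈ gen (A0 ∪ u '' Tc i))
    {i : ι} {z z' : L} (hz : P k0 z = 0) (hz' : P k0 z' = 0) {S : Set ι} [Intl N S]
    (hS : IsCl Tc S) (hi : i ∉ S) :
    gen (A0 ∪ u '' S) ⊆ {a | ip (P (u i) z') (P a z) = 0} := by
  have := T.cs.intl
  have := T.du.toIntl
  have hP' := hP.defF
  have hX : Intl N {a : Op N K H | ip (P (u i) z') (P a z) = 0} := intl_setOfT (by fun_prop)
  refine cl_ind (D := fun S => gen (A0 ∪ u '' S) ⊆ {a | ip (P (u i) z') (P a z) = 0})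
    (DefF.subset (gk_gen.defL DefF.id) (DefF.const _)) (gk_gen.dirCl (cld_orth hP.lipz _ _))
    (DefF.ofIntl Tc) (fun j => (hT j).1) i
    (fun S _ h a ha => (T.good i).ineq a (genL_mono h ha) z _ hz ((T.good i).map z' hz'))
    (fun γ S _ hγ h1 h2 low a ha => ?_) S hS hi
  have G := T.good γ
  have hsub := genL_mono (A0 := A0) (u := u) h2
  obtain ⟨W, w1, w2, w3, w4⟩ := (T.glue (genL_mono h1 (hT γ).2.1) (genL_mono h1 (hT γ).2.2)
    ((tower_det0 hP T).mono (genL_mono (Set.subset_univ S))) (G.det.mono hsub)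
    (G.ineq.mono hsub)).wit_v hP.hom hz low fun c hc => by
      have C := cs_gen (A0 ∪ u '' Set.Iio γ)
      have h3 := G.ineq _ (C.mul _ (C.star c (hsub hc)) _ (gk_gen.letter hγ)) z' (P (u γ) z) hz'
        (G.map z hz)
      rw [hP.toRp.mul_apply trivial trivial, hP.toRp.ip_star_right trivial] at h3
      exact ip_eq_zero_symm h3
  exact w4 a (gen_le_wit w1 w2 w3 (gk_gen.insert_le S γ ha))

/-- **Extension along the tower.** -/
theorem tower_ext (hP : URp Set.univ P) (T : IsTower P A0 k0 U k u) {Tc : ι → Set ι} [Intl N Tc]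
    (hT : ∀ i, Tc i ⊆ Set.Iio i ∧ k i ∈ gen (A0 ∪ u '' Tc i) ∧ u i * k0 ∈ gen (A0 ∪ u '' Tc i))
    {S : Set ι} [Intl N S] (hS : IsCl Tc S) {g : Op N K H} (hg : g ∈ gen (A0 ∪ u '' S))
    (hD : Det P g (gen (A0 ∪ u '' S))) : Det P g (gen (A0 ∪ u '' Set.univ)) := by
  refine (T.skel hP).ext (fun i hi x hx z1 z2 hz1 hz2 => ?_) hg hD
  have h2 := tower_orth hP T hT hz1 ((T.good i).map' z2 hz2)
    (hS.union_Iio (fun j => (hT j).1) i) (i := i) (fun h => h.elim hi (lt_irrefl i)) hx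
  rwa [Set.mem_ofPred_eq, hP.cancel (T.good i).un.2] at h2

/-- The whole algebra commutes with `U`. -/
theorem tower_com (T : IsTower P A0 k0 U k u) (h : ∀ a ∈ A0, Com U a) (S : Set ι) :
    ∀ a ∈ gen (A0 ∪ u '' S), Com U a :=
  gen_le (cs_com U) (Set.union_subset h (by rintro _ ⟨i, -, rfl⟩; exact (T.good i).com))

end Vale.Agent.P070Z
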