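import Vale.Agent.P129BZ.Zorn
import Vale.Agent.P129BO.St
import Vale.Agent.P129B.Choice

/-!
# Internal well-orders, maximal towers, climbing
-/

set_option linter.unusedSectionVars false

namespace Vale.Agent.P129B

universe v u

variable {N : Type v} [ZM N]

variable (N) in
/-- induction for definable predicates -/
class IWO (ι : Type*) [Coded N ι] [LT ι] : Prop where
  ind : ∀ P : ι → Prop, DefF N P → (∀ i, (∀ j, j < i → P j) → P i) → ∀ i, P i

/-- **Maximal towers.** -/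
theorem exists_max_tower {X : Type u} [Coded N X] [Tot N X] {G : Set X → X → Prop}
    (hG : DefF N (fun p : Set X × X => G p.1 p.2))
    (hn : ∀ S x, Intl N S → G S x → x ∉ S) :
    ∃ (ι : Type u) (_ : Coded N ι) (_ : Tot N ι) (_ : LinearOrder ι) (_ : DefLT N ι)
      (_ : IWO N ι) (e : ι → X), DefF N e ∧ (∀ i, G (e '' Set.Iio i) (e i)) ∧
      ∀ x, ¬ G (Set.range e) x := by
  classical
  obtain ⟨g, hg, H⟩ := Zo.exists_step (N := N) (Set.univ : Set X) hG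
  obtain ⟨T, hT, -, T2, T3, T4, T5⟩ := Zo.exists_tower (N := N) (Set.univ : Set X) hg
    fun s hs hsB => by
      rcases H s hs hsB with ⟨h, -⟩ | ⟨x, hx, -, h⟩ <;> rw [h]
      exacts [⟨Set.Subset.rfl, hsB⟩, ⟨Set.subset_insert _ _, Set.subset_univ _⟩]
  have H' := fun c (hc : c ∈ T) => H c (hT.of_mem hc) (Set.subset_univ _)
  have sub : ∀ c ∈ T, c ⊆ g c := fun c hc => by
    rcases H' c hc with ⟨h, -⟩ | ⟨x, -, -, h⟩ <;> rw [h]
    exact Set.subset_insert _ _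
  have hm := T3 T hT Set.Subset.rfl
  have hmI := hT.of_mem hm
  have cy : ∀ y, ⋃₀ {d | d ∈ T ∧ ¬ y ∈ d} ∈ T := fun y =>
    T3 _ (intl_sep (by fun_prop) T) fun d hd => hd.1
  have cn : ∀ y, y ∉ ⋃₀ {d | d ∈ T ∧ ¬ y ∈ d} := fun y ⟨d, hd, h⟩ => hd.2 h
  have key : ∀ y ∈ ⋃₀ T, G (⋃₀ {d | d ∈ T ∧ ¬ y ∈ d}) y ∧
      g (⋃₀ {d | d ∈ T ∧ ¬ y ∈ d}) = insert y (⋃₀ {d | d ∈ T ∧ ¬ y ∈ d}) := by
    rintro y ⟨d, hd, hy⟩
    have h1 := cy y
    have h2 := cn y
    have h3 : ∀ d ∈ T, y ∉ d → d ⊆ ⋃₀ {d | d ∈ T ∧ ¬ y ∈ d} :=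
      fun d hd h => Set.subset_sUnion_of_mem ⟨hd, h⟩
    generalize ⋃₀ {d | d ∈ T ∧ ¬ y ∈ d} = c at h1 h2 h3
    have := hT.of_mem h1
    have h4 : y ∈ g c := by
      by_contra h4
      have h5 := h3 _ (T2 c h1) h4
      refine h2 (T5 (fun d => d ⊆ c) (by fun_prop) (fun d hd ih => ?_)
        (fun S _ _ ih => Set.sUnion_subset ih) d hd hy)
      rcases T4 c h1 d hd with h | h
      · exact h
      · rw [ih.antisymm h]; exact h5
    rcases H' c h1 with ⟨h, -⟩ | ⟨x, -, hx, h⟩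
    · exact absurd (h ▸ h4) h2
    · obtain rfl : y = x := (h ▸ h4 : y ∈ insert x c).resolve_right h2
      exact ⟨hx, h⟩
  have hF : Fact (DefF N (fun x : X => x ∈ ⋃₀ T)) := ⟨by fun_prop⟩
  let lt : St N (fun x : X => x ∈ ⋃₀ T) → St N (fun x : X => x ∈ ⋃₀ T) → Prop :=
    fun x y => ∃ c ∈ T, x.1 ∈ c ∧ ¬ y.1 ∈ c
  have hlt : ∀ x y, lt x y ↔ x.1 ∈ ⋃₀ {d | d ∈ T ∧ ¬ y.1 ∈ d} := fun x y =>
    ⟨fun ⟨c, h1, h2, h3⟩ => ⟨c, ⟨h1, h3⟩, h2⟩, fun ⟨c, h1, h2⟩ => ⟨c, h1.1, h2, h1.2⟩⟩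
  have tri : ∀ x y, ¬ lt x y → ¬ lt y x → x = y := by
    intro x y h1 h2
    rw [hlt] at h1 h2
    have kx := (key x.1 x.2.2).2
    have ky := (key y.1 y.2.2).2
    rcases T4 _ (cy y.1) _ (cy x.1) with h | h
    · exact absurd (h (kx ▸ Set.mem_insert _ _)) h1
    rcases T4 _ (cy x.1) _ (cy y.1) with h' | h'
    · exact absurd (h' (ky ▸ Set.mem_insert _ _)) h2
    rw [h'.antisymm h, ky] at kx
    have h3 : x.1 ∈ insert y.1 (⋃₀ {d | d ∈ T ∧ ¬ y.1 ∈ d}) := by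
      rw [kx]; exact Set.mem_insert _ _
    exact Subtype.ext (h3.resolve_right h1)
  have sto : IsStrictTotalOrder _ lt :=
    { trichotomous := tri
      irrefl := fun x ⟨c, _, h, h'⟩ => h' h
      trans := by
        rintro x y z ⟨c, hc, h1, h2⟩ ⟨d, hd, h3, h4⟩
        rcases T4 c hc d hd with h | h
        · exact absurd (h (sub d hd h3)) h2
        · exact ⟨d, hd, h h1, h4⟩ }
  let lo : LinearOrder (St N (fun x : X => x ∈ ⋃₀ T)) := linearOrderOfSTO lt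
  refine ⟨St N (fun x : X => x ∈ ⋃₀ T), inferInstance, inferInstance, lo, ⟨?_⟩, ⟨?_⟩,
    fun x => x.1, defF_st_val, fun i => ?_, fun x hx => ?_⟩
  · show DefF N (fun p : St N (fun x : X => x ∈ ⋃₀ T) × St N (fun x : X => x ∈ ⋃₀ T) =>
      ∃ c ∈ T, p.1.1 ∈ c ∧ ¬ p.2.1 ∈ c)
    fun_prop
  · intro P hP h i
    refine T5 (fun c => ∀ i : St N (fun x : X => x ∈ ⋃₀ T), i.1 ∈ c → P i) (by fun_prop)
      (fun c hc ih i hi => ?_) (fun S _ _ ih i ⟨c, hc, hi⟩ => ih c hc i hi) _ hm i i.2.2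
    refine h i fun j ⟨d, hd, h1, h2⟩ => ih j ?_
    rcases T4 d hd c hc with h | h
    exacts [absurd (h hi) h2, h h1]
  · have : (fun x : St N (fun x : X => x ∈ ⋃₀ T) => x.1) '' Set.Iio i =
        ⋃₀ {d | d ∈ T ∧ ¬ i.1 ∈ d} := by
      ext x
      constructor
      · rintro ⟨j, hj, rfl⟩
        exact (hlt j i).1 hj
      · rintro ⟨d, hd, hx⟩
        exact ⟨⟨x, inferInstance, d, hd.1, hx⟩, ⟨d, hd.1, hx, hd.2⟩, rfl⟩
    rw [this]
    exact (key i.1 i.2.2).1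
  · have : Set.range (fun x : St N (fun x : X => x ∈ ⋃₀ T) => x.1) = ⋃₀ T := by
      ext x
      exact ⟨fun ⟨j, hj⟩ => hj ▸ j.2.2, fun h => ⟨⟨x, inferInstance, h⟩, rfl⟩⟩
    rw [this] at hx
    rcases H' _ hm with ⟨-, h⟩ | ⟨y, -, hy, h⟩
    · exact h x trivial hx
    · exact hn _ y hmI hy (Set.subset_sUnion_of_mem (T2 _ hm) (h ▸ Set.mem_insert _ _))

section

variable {ι : Type*} [Coded N ι] [Tot N ι] [LinearOrder ι] [DefLT N ι]
variable {α : Type*} [Coded N α]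

@[fun_prop] theorem DefF.setIio {f : α → ι} (hf : DefF N f) : DefF N (fun a => Set.Iio (f a)) :=
  DefF.setOfT (P := fun a j => j < f a) (by fun_prop)

@[fun_prop] theorem DefF.setIic {f : α → ι} (hf : DefF N f) : DefF N (fun a => Set.Iic (f a)) :=
  have : DefLE N ι := defLE_of_lt
  DefF.setOfT (P := fun a j => j ≤ f a) (by fun_prop)

instance intl_Iio (i : ι) : Intl N (Set.Iio i) := (DefF.setIio DefF.id).intl i
instance intl_Iic (i : ι) : Intl N (Set.Iic i) := (DefF.setIic DefF.id).intl i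

variable (N) in
/-- closed under internal directed unions -/
def DirCl (D : Set ι → Prop) : Prop :=
  ∀ F : Set (Set ι), Intl N F → F.Nonempty → DirectedOn (· ⊆ ·) F → (∀ T ∈ F, D T) → D (⋃₀ F)

/-- closed sets of letters -/
def IsCl (T : ι → Set ι) (S : Set ι) : Prop := ∀ i ∈ S, T i ⊆ S

@[fun_prop] theorem DefF.isCl {T : ι → Set ι} (hT : DefF N T) {S : α → Set ι} (hS : DefF N S) :
    DefF N (fun a => IsCl T (S a)) := by
  unfold IsCl
  fun_prop

theorem IsCl.inter_Iio {T : ι → Set ι} (hT : ∀ i, T i ⊆ Set.Iio i) {S : Set ι}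
    (hS : IsCl T S) (i : ι) : IsCl T (S ∩ Set.Iio i) :=
  fun j hj _ hx => ⟨hS j hj.1 hx, lt_trans (hT j hx) hj.2⟩

theorem IsCl.inter_Iic {T : ι → Set ι} (hT : ∀ i, T i ⊆ Set.Iio i) {S : Set ι}
    (hS : IsCl T S) (i : ι) : IsCl T (S ∩ Set.Iic i) :=
  fun j hj _ hx => ⟨hS j hj.1 hx, le_of_lt (lt_of_lt_of_le (hT j hx) hj.2)⟩

theorem IsCl.union_Iio {T : ι → Set ι} (hT : ∀ i, T i ⊆ Set.Iio i) {S : Set ι}
    (hS : IsCl T S) (i : ι) : IsCl T (S ∪ Set.Iio i) := by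
  rintro j (hj | hj) x hx
  exacts [Or.inl (hS j hj hx), Or.inr (lt_trans (hT j hx) hj)]

/-- unions along a monotone definable family -/
theorem DirCl.chain {D : Set ι → Prop} (h : DirCl N D) {S0 S J : Set ι} [Intl N S0] [Intl N J]
    {f : ι → Set ι} (hf : DefF N f) (hm : Monotone f) (h0 : ∀ j, S0 ⊆ f j)
    (e : ∀ x, x ∈ S ↔ x ∈ S0 ∨ ∃ j ∈ J, x ∈ f j) (hD : D S0) (hJ : ∀ j ∈ J, D (f j)) : D S := by
  have h1 := intl_image hf J
  have e' : S = ⋃₀ (insert S0 (f '' J)) := by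
    ext x
    rw [e]
    simp
  rw [e']
  refine h _ inferInstance ⟨S0, Set.mem_insert _ _⟩ ?_ ?_
  · rintro T1 (rfl | ⟨i, hi, rfl⟩) T2 (rfl | ⟨j, hj, rfl⟩)
    · exact ⟨_, Set.mem_insert _ _, subset_rfl, subset_rfl⟩
    · exact ⟨_, Or.inr ⟨j, hj, rfl⟩, h0 j, subset_rfl⟩
    · exact ⟨_, Or.inr ⟨i, hi, rfl⟩, subset_rfl, h0 i⟩
    · rcases le_total i j with h | h
      exacts [⟨_, Or.inr ⟨j, hj, rfl⟩, hm h, subset_rfl⟩, ⟨_, Or.inr ⟨i, hi, rfl⟩, subset_rfl, hm h⟩]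
  · rintro T (rfl | ⟨i, hi, rfl⟩)
    exacts [hD, hJ i hi]

variable [IWO N ι]

/-- **Climbing.** -/
theorem climb {D : Set ι → Prop} (hD : DefF N D) (h : DirCl N D) (S : Set ι) [Intl N S]
    (h0 : D S) (step : ∀ i, i ∉ S → D (S ∪ Set.Iio i) → D (insert i (S ∪ Set.Iio i))) :
    D Set.univ := by
  have step' : ∀ j, D (S ∪ Set.Iio j) → D (S ∪ Set.Iic j) := by
    intro j hj
    have e : S ∪ Set.Iic j = insert j (S ∪ Set.Iio j) := by
      rw [← Set.union_insert, Set.Iio_insert]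
    rw [e]
    by_cases hjS : j ∈ S
    · rwa [Set.insert_eq_of_mem (show j ∈ S ∪ Set.Iio j from Or.inl hjS)]
    · exact step j hjS hj
  have hf : DefF N (fun j : ι => S ∪ Set.Iic j) := by fun_prop
  have hm : Monotone (fun j : ι => S ∪ Set.Iic j) := fun i j hij =>
    Set.union_subset_union_right _ (Set.Iic_subset_Iic.2 hij)
  have all : ∀ i, D (S ∪ Set.Iio i) := by
    refine IWO.ind (N := N) _ (hD.comp (by fun_prop)) fun i ih => ?_
    refine h.chain (S0 := S) (J := Set.Iio i) hf hm (fun _ => Set.subset_union_left)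
      (fun x => ⟨?_, ?_⟩) h0 fun j hj => step' j (ih j hj)
    · rintro (hx | hx)
      exacts [Or.inl hx, Or.inr ⟨x, hx, Or.inr le_rfl⟩]
    · rintro (hx | ⟨j, hj, hx | hx⟩)
      exacts [Or.inl hx, Or.inl hx, Or.inr (lt_of_le_of_lt hx hj)]
  exact h.chain (S0 := S) (J := Set.univ) hf hm (fun _ => Set.subset_union_left)
    (fun x => ⟨fun _ => Or.inr ⟨x, trivial, Or.inr le_rfl⟩, fun _ => trivial⟩) h0
    fun j _ => step' j (all j)

/-- Induction over the closed sets of letters that omit `i`. -/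
theorem cl_ind {D : Set ι → Prop} (hD : DefF N D) (h : DirCl N D) {T : ι → Set ι}
    (hT : DefF N T) (hsub : ∀ j, T j ⊆ Set.Iio j) (i : ι)
    (base : ∀ S, Intl N S → S ⊆ Set.Iio i → D S)
    (step : ∀ γ S, Intl N S → i < γ → T γ ⊆ S → S ⊆ Set.Iio γ → D S → D (insert γ S))
    (S : Set ι) [Intl N S] (hS : IsCl T S) (hi : i ∉ S) : D S := by
  have dir : ∀ (S J : Set ι), Intl N S → Intl N J → S ⊆ J → (∀ j ∈ J, D (S ∩ Set.Iic j)) →
      D S := fun S J _ _ hSJ H =>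
    h.chain (S0 := ∅) (J := J) (f := fun j => S ∩ Set.Iic j) (by fun_prop)
      (fun i j hij => Set.inter_subset_inter_right _ (Set.Iic_subset_Iic.2 hij))
      (fun _ => Set.empty_subset _)
      (fun x => ⟨fun hx => Or.inr ⟨x, hSJ hx, hx, le_rfl⟩, by
        rintro (hx | ⟨_, _, hx, _⟩)
        exacts [hx.elim, hx]⟩) (base ∅ inferInstance (Set.empty_subset _)) H
  have claim : ∀ γ : ι, ∀ S : Set ι, Intl N S → IsCl T S → ¬ i ∈ S → S ⊆ Set.Iic γ → D S := by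
    refine IWO.ind (N := N) _ (by fun_prop) fun γ ih S _ hS hi hSγ => ?_
    by_cases hlt : γ < i
    · exact base S inferInstance fun x hx => lt_of_le_of_lt (hSγ hx) hlt
    have low : D (S ∩ Set.Iio γ) :=
      dir _ (Set.Iio γ) inferInstance inferInstance Set.inter_subset_right fun j hj =>
        ih j hj _ inferInstance ((hS.inter_Iio hsub γ).inter_Iic hsub j) (fun h => hi h.1.1)
          Set.inter_subset_right
    by_cases hγ : γ ∈ S
    · have e : S = insert γ (S ∩ Set.Iio γ) := by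
        ext x
        constructor
        · exact fun hx => (eq_or_lt_of_le (hSγ hx)).imp id fun h => ⟨hx, h⟩
        · rintro (rfl | hx)
          exacts [hγ, hx.1]
      rw [e]
      exact step γ _ inferInstance (lt_of_le_of_ne (not_lt.1 hlt) fun h => hi (h ▸ hγ))
        (fun x hx => ⟨hS γ hγ hx, hsub γ hx⟩) Set.inter_subset_right low
    · have e : S = S ∩ Set.Iio γ := by
        ext x
        exact ⟨fun hx => ⟨hx, lt_of_le_of_ne (hSγ hx) fun h => hγ (h ▸ hx)⟩, fun h => h.1⟩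
      rw [e]
      exact low
  exact dir S Set.univ inferInstance inferInstance (Set.subset_univ _) fun j _ =>
    claim j _ inferInstance (hS.inter_Iic hsub j) (fun h => hi h.1) Set.inter_subset_right

end

end Vale.Agent.P129B
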