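import Vale.Agent.P070ZW.Wo
import Vale.Agent.P070ZA.Hs

/-!
# The combinatorial skeleton of the tower argument and two closure lemmas
-/

set_option linter.unusedSectionVars false

namespace Vale.Agent.P070Z

open Vale.Agent.P129B

universe v

variable {N : Type v} [ZM N]

section

variable {ι : Type*} [Coded N ι] [Tot N ι] [LinearOrder ι] [DefLT N ι] [IWO N ι]
variable {A : Type*} {D M : A → Set ι → Prop} {I : ι → Set ι → Prop} {k0 : A} {k : ι → A}

variable (N D M I k0 k) in
/-- `D g S`: `g` determines the algebra of the letters `S`; `M g S`: `g` lies in it;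
`I i S`: it does not connect the kernels of `k0` and `k i`. -/
structure Skel : Prop where
  defD : ∀ g, DefF N (D g)
  dir : ∀ g, DirCl N (D g)
  anti : ∀ g S, Intl N S → D g Set.univ → D g S
  mono : ∀ g S T, Intl N S → Intl N T → S ⊆ T → M g S → M g T
  step : ∀ g S i, Intl N S → Set.Iio i ⊆ S → M g S → D k0 S → D (k i) S → D g S → I i S →
    D g (insert i S)
  d0 : D k0 ∅
  m0 : ∀ S, Intl N S → M k0 S
  dk : ∀ i, D (k i) (Set.Iio i)
  mk' : ∀ i, M (k i) (Set.Iio i)
  ii : ∀ i, I i (Set.Iio i)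

theorem Skel.det0 (h : Skel N D M I k0 k) : D k0 Set.univ := by
  refine climb (h.defD k0) (h.dir k0) ∅ h.d0 fun i _ hD => ?_
  rw [Set.empty_union] at hD ⊢
  exact h.step _ _ i inferInstance subset_rfl (h.m0 _ inferInstance) hD (h.dk i) hD (h.ii i)

theorem Skel.step1 (h : Skel N D M I k0 k) {g : A} {i : ι} (hg : M g (Set.Iio i))
    (hD : D g (Set.Iio i)) : D g Set.univ := by
  refine climb (h.defD g) (h.dir g) (Set.Iio i) hD fun j hj hDj => ?_
  have hij : Set.Iio i ⊆ Set.Iio j := Set.Iio_subset_Iio (not_lt.1 hj)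
  rw [Set.union_eq_self_of_subset_left hij] at hDj ⊢
  exact h.step _ _ j inferInstance subset_rfl (h.mono _ _ _ inferInstance inferInstance hij hg)
    (h.anti _ _ inferInstance h.det0) (h.dk j) hDj (h.ii j)

theorem Skel.ext (h : Skel N D M I k0 k) {g : A} {S : Set ι} [Intl N S]
    (hI : ∀ i, i ∉ S → I i (S ∪ Set.Iio i)) (hg : M g S) (hD : D g S) : D g Set.univ :=
  climb (h.defD g) (h.dir g) S hD fun i hi hDi =>
    h.step _ _ i inferInstance Set.subset_union_right
      (h.mono _ _ _ inferInstance inferInstance Set.subset_union_left hg)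
      (h.anti _ _ inferInstance h.det0) (h.anti _ _ inferInstance (h.step1 (h.mk' i) (h.dk i)))
      hDi (hI i hi)

end

section

variable {R : Type*} [Field R] [LinearOrder R] [IsStrictOrderedRing R]
variable {E : Type*} [AddCommGroup E] [Nm E R] [NG R E]

/-- Separately Lipschitz operations preserve closures. -/
theorem icl_map2 {f : E → E → E} (hl : ∀ y, ∃ C : R, ∀ x x', nm (f x y - f x' y) ≤ C * nm (x - x'))
    (hr : ∀ x, ∃ C : R, ∀ y y', nm (f x y - f x y') ≤ C * nm (y - y')) {S : Set E}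
    (h : ∀ x ∈ S, ∀ y ∈ S, f x y ∈ S) {x y : E} (hx : x ∈ icl S) (hy : y ∈ icl S) :
    f x y ∈ icl S := by
  obtain ⟨C, hC⟩ := hl y
  refine map_icl (f := fun x => f x y) hC (fun x hx => ?_) hx
  obtain ⟨C', hC'⟩ := hr x
  exact map_icl (f := f x) hC' (fun y hy => sub_icl S (h x hx y hy)) hy

end

section

variable {R K : Type*} [Nm K R] [Field R] [LinearOrder R] [IsStrictOrderedRing R]
  [Field K] [Algebra R K] [KA R K] [StarRing K] [CX R K]
variable {E : Type*} [AddCommGroup E] [Nm E R] [NG R E]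
variable {L : Type*} [AddCommGroup L] [Module K L] [Nm L R] [Ip L K] [IA R K L]

theorem nm_ip_sub_le {P : E → L → L} (hP : ∀ x y z, nm (P x z - P y z) ≤ nm (x - y) * nm z)
    (w z : L) (x y : E) : nm (ip w (P x z) - ip w (P y z)) ≤ nm w * nm z * nm (x - y) := by
  rw [← ip_sub_right]
  have h1 := mul_le_mul_of_nonneg_left (hP x y z) (nm_nonneg w)
  linarith [nm_ip_le w (P x z - P y z)]

theorem cld_orth {P : E → L → L} (hP : ∀ x y z, nm (P x z - P y z) ≤ nm (x - y) * nm z)
    (w z : L) : Cld {x | ip w (P x z) = 0} :=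
  cld_eq_zero (f := fun x => ip w (P x z)) (nm_ip_sub_le hP w z)

/-- Being a scalar on `V` is a closed condition. -/
theorem cld_scalar {P : E → L → L} (hP : ∀ x y z, nm (P x z - P y z) ≤ nm (x - y) * nm z)
    (V : L → Prop) : Cld {x | ∃ c : K, ∀ z w, V z → V w → ip w (P x z) = c * ip w z} := by
  by_cases hz : ∃ z0, V z0 ∧ z0 ≠ 0
  · obtain ⟨z0, h0, h1⟩ := hz
    have h2 : ip z0 z0 ≠ 0 := fun h => h1 (ip_self_eq_zero.1 h)
    have e : {x | ∃ c : K, ∀ z w, V z → V w → ip w (P x z) = c * ip w z} =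
        {x | ∀ z w, V z → V w → ip w (P x z) * ip z0 z0 - ip z0 (P x z0) * ip w z = 0} := by
      ext x
      constructor
      · rintro ⟨c, hc⟩ z w hz hw
        rw [hc z w hz hw, hc z0 z0 h0 h0]
        ring
      · refine fun h => ⟨ip z0 (P x z0) / ip z0 z0, fun z w hz hw => ?_⟩
        rw [div_mul_eq_mul_div, eq_div_iff h2, sub_eq_zero.1 (h z w hz hw)]
    rw [e]
    refine cld_forall fun z => cld_forall fun w => cld_forall fun _ => cld_forall fun _ => ?_
    refine cld_eq_zero (f := fun x => ip w (P x z) * ip z0 z0 - ip z0 (P x z0) * ip w z)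
      (C := nm w * nm z * nm (ip z0 z0) + nm z0 * nm z0 * nm (ip w z)) fun x y => ?_
    have e2 : ip w (P x z) * ip z0 z0 - ip z0 (P x z0) * ip w z -
        (ip w (P y z) * ip z0 z0 - ip z0 (P y z0) * ip w z) =
        (ip w (P x z) - ip w (P y z)) * ip z0 z0 -
          (ip z0 (P x z0) - ip z0 (P y z0)) * ip w z := by ring
    rw [e2]
    refine (nm_sub_le _ _).trans ?_
    rw [KA.nm_mul, KA.nm_mul]
    have h3 := mul_le_mul_of_nonneg_right (nm_ip_sub_le hP w z x y) (nm_nonneg (ip z0 z0))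
    have h4 := mul_le_mul_of_nonneg_right (nm_ip_sub_le hP z0 z0 x y) (nm_nonneg (ip w z))
    linarith
  · refine fun x _ => ⟨0, fun z w hz' hw => ?_⟩
    obtain rfl : w = 0 := by
      by_contra h
      exact hz ⟨w, hw, h⟩
    rw [ip_zero_left, zero_mul]

end

end Vale.Agent.P070Z
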