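import Vale.Agent.P070ZW.Abs
import Vale.Agent.P070ZT.Stage

/-!
# Directed unions of sets of letters
-/

set_option linter.unusedSectionVars false

namespace Vale.Agent.P070ZT

open Vale.Agent.P129B

universe v

variable {N : Type v} [ZM N]
  {R : Type*} [Field R] [LinearOrder R] [IsStrictOrderedRing R] [Coded N R] [RF N R]
  {K : Type*} [Field K] [Algebra R K] [Nm K R] [KA R K] [Coded N K] [KF N R K]
  {W : Type*} [Ring W] [StarRing W] [Module K W] [Nm W R] [NA R K W] [Coded N W] [NS N R K W]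
  [DefMul N W] {gn : Set W → Set W}
  {ι : Type*} [Coded N ι] [Tot N ι] {A0 : Set W} [Intl N A0] {u : ι → W} [Intl N u]

theorem GK.dirCl (G : GK N K gn) {X : Set W} (hX : cl X ⊆ X) :
    DirCl N (fun S : Set ι => gn (A0 ∪ u '' S) ⊆ X) := by
  intro F hF ⟨T0, h0⟩ hd h
  have h1 := intl_sUnion (N := N) F
  have h2 : Intl N ((fun T => gn (A0 ∪ u '' T)) '' F) := intl_image (G.defL DefF.id) F
  have h3 := intl_sUnion (N := N) ((fun T => gn (A0 ∪ u '' T)) '' F)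
  have C := G.dir (F := (fun T => gn (A0 ∪ u '' T)) '' F) ⟨_, T0, h0, rfl⟩ (by
    rintro _ ⟨S, hS, rfl⟩ _ ⟨T, hT, rfl⟩
    obtain ⟨U, hU, a, b⟩ := hd S hS T hT
    have := hF.of_mem hS
    have := hF.of_mem hT
    have := hF.of_mem hU
    exact ⟨_, ⟨U, hU, rfl⟩, G.monoL a, G.monoL b⟩) (by
    rintro _ ⟨S, hS, rfl⟩
    have := hF.of_mem hS
    exact G.cs _ inferInstance)
  refine (G.min _ _ inferInstance C ?_).trans ((cl_mono ?_).trans hX)
  · rintro x (hx | ⟨i, ⟨T, hT, hi⟩, rfl⟩)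
    · have := hF.of_mem h0
      exact sub_cl _ ⟨_, ⟨T0, h0, rfl⟩, G.sub _ inferInstance (Or.inl hx)⟩
    · have := hF.of_mem hT
      exact sub_cl _ ⟨_, ⟨T, hT, rfl⟩, G.sub _ inferInstance (Or.inr ⟨i, hi, rfl⟩)⟩
  · rintro x ⟨_, ⟨T, hT, rfl⟩, hx⟩
    exact h T hT hx

theorem GK.insert_le (G : GK N K gn) (S : Set ι) [Intl N S] (i : ι) :
    gn (A0 ∪ u '' insert i S) ⊆ gn (gn (A0 ∪ u '' S) ∪ {u i}) := by
  have := (G.cs (A0 ∪ u '' S) inferInstance).intl
  refine G.min _ _ inferInstance (G.cs _ inferInstance) ?_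
  rintro x (hx | ⟨j, rfl | hj, rfl⟩)
  · exact G.sub _ inferInstance (Or.inl (G.sub _ inferInstance (Or.inl hx)))
  · exact G.sub _ inferInstance (Or.inr rfl)
  · exact G.sub _ inferInstance (Or.inl (G.sub _ inferInstance (Or.inr ⟨j, hj, rfl⟩)))

theorem GK.empty_le (G : GK N K gn) (h : CS N K A0) : gn (A0 ∪ u '' ∅) ⊆ A0 :=
  G.min _ _ inferInstance h (by simp)

theorem GK.base_le (G : GK N K gn) (S : Set ι) [Intl N S] : A0 ⊆ gn (A0 ∪ u '' S) :=
  Set.subset_union_left.trans (G.sub _ inferInstance)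

theorem GK.letter (G : GK N K gn) {S : Set ι} [Intl N S] {i : ι} (h : i ∈ S) :
    u i ∈ gn (A0 ∪ u '' S) := G.sub _ inferInstance (Or.inr ⟨i, h, rfl⟩)

end Vale.Agent.P070ZT
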